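import Vale.Agent.P235.R2.H582.FewU

/-!
P235-M (helper582).  Terminals: slopes at least `1/D` from slope one.
-/

set_option autoImplicit false
set_option linter.all false

namespace Vale.Agent.P235.R2.H582.FewT

open SimpleGraph Relation Vale.Agent.P235 Vale.Agent.P235.Red Vale.Agent.P235.Quo
  Vale.Agent.P235.R2.H582.GL Vale.Agent.P235.H341W
open Vale.Agent.P235.R2.H168 (hlen hlen_mk)

/-- **shrinking the steep edges between terminals** -/
theorem shrT {V : Type} [Finite V] {G : SimpleGraph V} {ℓ : Sym2 V → ℝ} {h : V → ℝ}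
    {L A B : Set V} {D : ℝ} (hD : 1 ≤ D) (hW : WideL G ℓ h D L A B) :
    ∃ ℓ₁ : Sym2 V → ℝ, (∀ e ∈ G.edgeSet, 0 < ℓ₁ e) ∧
      (∀ u ∈ L, ∀ v ∈ L, |h u - h v| ≤ pathDist G ℓ₁ u v) ∧
      (∀ v ∈ L, v ∉ A → ∃ u, T G ℓ₁ h L u v) ∧ (∀ v ∈ L, v ∉ B → ∃ u, T G ℓ₁ h L v u) ∧
      ∀ K : ℝ, 0 ≤ K → EmbedsL1 (fun u v : L => pathDist G ℓ₁ u v) K →
        EmbedsL1 (fun u v : L => pathDist G ℓ u v) (D * K) := by
  classical
  have hc := hW.conn
  have hℓ := hW.pos
  have h1 := hW.lip
  have hD0 : (0 : ℝ) < D := by linarith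
  have hpos : ∀ u v, G.Adj u v → 0 < ℓ s(u, v) := fun u v ha => hℓ _ ((G.mem_edgeSet).2 ha)
  -- the tight lengths
  let ℓ₁ : Sym2 V → ℝ := fun e => if (∀ z ∈ e, z ∈ L) ∧ ℓ e ≤ D * hlen h e then hlen h e else ℓ e
  have hs1 : ∀ u v, u ∈ L → v ∈ L → ℓ s(u, v) ≤ D * |h u - h v| → ℓ₁ s(u, v) = |h u - h v| := by
    intro u v hu hv huv
    show (if (∀ z ∈ s(u, v), z ∈ L) ∧ ℓ s(u, v) ≤ D * hlen h s(u, v) then hlen h s(u, v) else
      ℓ s(u, v)) = _
    rw [if_pos, hlen_mk]
    refine ⟨fun z hz => ?_, by rw [hlen_mk]; exact huv⟩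
    rcases Sym2.mem_iff.1 hz with rfl | rfl
    · exact hu
    · exact hv
  have hcases : ∀ u v, G.Adj u v → (u ∈ L ∧ v ∈ L ∧ ℓ s(u, v) ≤ D * |h u - h v| ∧
      ℓ₁ s(u, v) = |h u - h v|) ∨ ℓ₁ s(u, v) = ℓ s(u, v) := by
    intro u v ha
    by_cases huv : (∀ z ∈ s(u, v), z ∈ L) ∧ ℓ s(u, v) ≤ D * hlen h s(u, v)
    · have hu : u ∈ L := huv.1 u (Sym2.mem_mk_left u v)
      have hv : v ∈ L := huv.1 v (Sym2.mem_mk_right u v)
      have h2 := huv.2
      rw [hlen_mk] at h2
      exact Or.inl ⟨hu, hv, h2, hs1 u v hu hv h2⟩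
    · exact Or.inr (if_neg huv)
  have hLl : ∀ u v, G.Adj u v → u ∈ L → v ∈ L → |h u - h v| ≤ ℓ s(u, v) := fun u v ha hu hv =>
    (h1 u hu v hv).trans (F0.d_adj hℓ ha)
  have hne : ∀ u v, G.Adj u v → ℓ s(u, v) ≤ D * |h u - h v| → 0 < |h u - h v| := by
    intro u v ha huv
    have h3 := hpos u v ha
    by_contra hh
    have h4 : |h u - h v| = 0 := le_antisymm (not_lt.1 hh) (abs_nonneg _)
    rw [h4, mul_zero] at huv
    linarith
  have hℓ₁ : ∀ e ∈ G.edgeSet, 0 < ℓ₁ e := fun e he => by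
    induction e with
    | _ u v =>
      rcases hcases u v he with ⟨-, -, h2, h3⟩ | h2
      · rw [h3]
        exact hne u v he h2
      · rw [h2]
        exact hℓ _ he
  have hle1 : ∀ u v, G.Adj u v → ℓ₁ s(u, v) ≤ ℓ s(u, v) := by
    intro u v ha
    rcases hcases u v ha with ⟨hu, hv, h2, h3⟩ | h2
    · rw [h3]
      exact hLl u v ha hu hv
    · rw [h2]
  have hle2 : ∀ u v, G.Adj u v → ℓ s(u, v) ≤ D * ℓ₁ s(u, v) := by
    intro u v ha
    rcases hcases u v ha with ⟨-, -, h2, h3⟩ | h2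
    · rw [h3]
      exact h2
    · rw [h2]
      exact le_mul_of_one_le_left (hpos u v ha).le hD
  -- `h` is still nonexpansive on the terminals
  have h1' : ∀ u ∈ L, ∀ v ∈ L, |h u - h v| ≤ pathDist G ℓ₁ u v := by
    intro u hu v hv
    have h2 := pd_semi (ℓ := gl G ℓ₁ L) (ρ := fun x y : L => |h x - h y|)
      (gr_conn hc hℓ₁ ⟨u, hu⟩) one_pos (fun x => by simp)
      (fun x y z => abs_sub_le _ _ _) (fun x y hxy => by
        rw [one_mul]
        refine le_gl hxy fun w hw => ?_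
        by_cases hin : ∃ e ∈ w.edges, ∀ z ∈ e, z ∈ L
        · obtain ⟨e, he, hez⟩ := hin
          have h3 : |h x.1 - h y.1| ≤ ℓ₁ e := by
            induction e with
            | _ p q =>
              have hpq : G.Adj p q := w.adj_of_mem_edges he
              have hp := hez p (Sym2.mem_mk_left p q)
              have hq := hez q (Sym2.mem_mk_right p q)
              have hpe := hw p (w.fst_mem_support_of_mem_edges he) hp
              have hqe := hw q (w.snd_mem_support_of_mem_edges he) hq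
              have h4 : |h p - h q| ≤ ℓ₁ s(p, q) := by
                rcases hcases p q hpq with ⟨-, -, -, h5⟩ | h5
                · rw [h5]
                · rw [h5]
                  exact hLl p q hpq hp hq
              rcases hpe with rfl | rfl <;> rcases hqe with rfl | rfl
              · exact absurd rfl hpq.ne
              · exact h4
              · rw [abs_sub_comm]
                exact h4
              · exact absurd rfl hpq.ne
          refine h3.trans ?_
          have hmem : ℓ₁ e ∈ w.edges.map ℓ₁ := List.mem_map_of_mem he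
          refine List.single_le_sum (fun r hr => ?_) _ hmem
          rw [List.mem_map] at hr
          obtain ⟨e', he', rfl⟩ := hr
          exact (hℓ₁ e' (w.edges_subset_edgeSet he')).le
        · push Not at hin
          have h3 : wl ℓ₁ w = wl ℓ w := by
            unfold wl
            congr 1
            refine List.map_congr_left fun e he => ?_
            refine if_neg fun h4 => ?_
            obtain ⟨z, hz, hzL⟩ := hin e he
            exact hzL (h4.1 z hz)
          rw [h3]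
          exact (h1 x x.2 y y.2).trans (F0.d_le hℓ w)) ⟨u, hu⟩ ⟨v, hv⟩
    rw [one_mul, gr_dist hc hℓ₁] at h2
    exact h2
  have hdn : ∀ u v, u ∈ L → v ∈ L → G.Adj u v → ℓ s(u, v) ≤ D * (h v - h u) →
      T G ℓ₁ h L u v := by
    intro u v hu hv ha huv
    have h3 := hpos u v ha
    have h4 : 0 < h v - h u := by
      by_contra hh
      have h5 : D * (h v - h u) ≤ 0 := mul_nonpos_of_nonneg_of_nonpos hD0.le (not_lt.1 hh)
      linarith
    refine ⟨ha, ?_, hu, hv⟩
    rw [hs1 u v hu hv (by rw [abs_sub_comm, abs_of_pos h4]; exact huv), abs_sub_comm,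
      abs_of_pos h4]
  refine ⟨ℓ₁, hℓ₁, h1', fun v hv hvA => ?_, fun v hv hvB => ?_, fun K hK hE => ?_⟩
  · obtain ⟨u, hu, ha, h2⟩ := hW.low v hv hvA
    exact ⟨u, hdn u v hu hv ha.symm (by rw [Sym2.eq_swap]; exact h2)⟩
  · obtain ⟨u, hu, ha, h2⟩ := hW.high v hv hvB
    exact ⟨u, hdn v u hv hu ha h2⟩
  · have e1 : ∀ x y, pathDist G ℓ x y ≤ D * pathDist G ℓ₁ x y :=
      R2.H673.pathDist_le_mul hD0.le (fun u v ha => (hpos u v ha).le) hle2
    have e2 : ∀ x y, pathDist G ℓ₁ x y ≤ 1 * pathDist G ℓ x y :=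
      R2.H673.pathDist_le_mul zero_le_one (fun u v ha => (hℓ₁ _ ((G.mem_edgeSet).2 ha)).le)
        (fun u v ha => by rw [one_mul]; exact hle1 u v ha)
    refine R2.H673.embedsL1_scale (d := fun u v : L => pathDist G ℓ u v)
      (d' := fun u v : L => pathDist G ℓ₁ u v) hD0.le hE (fun x y => e1 x y) (fun x y => ?_)
    have h4 := mul_le_mul_of_nonneg_left (e2 x y) (mul_nonneg hD0.le hK)
    rw [one_mul] at h4
    calc D * (K * pathDist G ℓ₁ x y) = D * K * pathDist G ℓ₁ x y := by ring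
      _ ≤ _ := h4

end Vale.Agent.P235.R2.H582.FewT
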